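import Vale.Agent.P300.H839.Curve
import Vale.Agent.P300.Spec.Kap142

/-!
# [SPH] the two spheres `D'`, `D''` of the bad fibre in `M̄_{0,5}`

For any `Y` with (star region) charts `k5, kX, k1` resp. `k5, k6, k9` of the node table `H142.kap`.
-/

open Set Filter Topology Complex

namespace Vale.Agent.P300.H707

open Vale.Agent.P300.H839 Vale.Agent.P300.H142

variable {Y : Type*} [TopologicalSpace Y]

theorem inv_slit {w : ℂ} (hw : w ∈ slitPlane) : w⁻¹ ∈ slitPlane := by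
  have h0 : w ≠ 0 := slitPlane_ne_zero hw
  have h1 : 0 < normSq w := normSq_pos.2 h0
  rw [mem_slitPlane_iff] at hw ⊢
  rw [inv_re, inv_im]
  rcases hw with h | h
  · exact Or.inl (div_pos h h1)
  · exact Or.inr (div_ne_zero (neg_ne_zero.2 h) h1.ne')

theorem one_sub_inv_mem {w : ℂ} (hw : 1 - w ∈ slitPlane) :
    1 - w / (w - 1) ∈ slitPlane := by
  have h1 : 1 - w ≠ 0 := slitPlane_ne_zero hw
  have h2 : w - 1 ≠ 0 := fun h => h1 (by linear_combination -h)
  have h3 : 1 - w / (w - 1) = (1 - w)⁻¹ := by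
    field_simp
    ring
  rw [h3]
  exact inv_slit hw

theorem neBot_nonreal (w : ℂ) : (𝓝[{z : ℂ | z.im ≠ 0}] w).NeBot := by
  rw [← mem_closure_iff_nhdsWithin_neBot, Metric.mem_closure_iff]
  intro ε hε
  by_cases h : w.im = 0
  · refine ⟨w + (ε / 2 : ℝ) * I, ?_, ?_⟩
    · show (w + (ε / 2 : ℝ) * I).im ≠ 0
      simp [h, hε.ne']
    · rw [dist_eq_norm]
      have h1 : w - (w + (ε / 2 : ℝ) * I) = -((ε / 2 : ℝ) * I) := by ring
      rw [h1, norm_neg, norm_mul, norm_I, mul_one, norm_real, Real.norm_eq_abs,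
        abs_of_pos (by positivity)]
      linarith
  · exact ⟨w, h, by simpa using hε⟩

open Classical in
/-- gluing a sphere from the three axis maps -/
theorem exists_sph [T2Space Y] {A B C : ℂ → Y}
    (hA : ∀ v, 1 - v ∈ slitPlane → ContinuousAt A v)
    (hB : ∀ v, 1 - v ∈ slitPlane → ContinuousAt B v)
    (hC : ∀ v, 1 - v ∈ slitPlane → ContinuousAt C v)
    (hAB : ∀ w, w ∈ slitPlane → 1 - w ∈ slitPlane → A (1 - w) = B w)
    (hCA : ∀ w, w ∈ slitPlane → 1 - w ∈ slitPlane → C (w / (w - 1)) = A (1 - w⁻¹)) :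
    ∃ S : Sph Y, (∀ w, 1 - w ∈ slitPlane → S.f w = B w) ∧
      (∀ w, w ∈ slitPlane → S.f w = A (1 - w)) ∧
      (∀ w, 1 - w ∈ slitPlane → S.g w = C (w / (w - 1))) ∧
      (∀ w, w ∈ slitPlane → S.g w = A (1 - w⁻¹)) := by
  -- the values on the negative axis
  have hneg : ∀ w : ℂ, w ∉ slitPlane → 1 - w ∈ slitPlane := by
    intro w hw
    rw [mem_slitPlane_iff, not_or, not_lt, not_not] at hw
    left
    rw [sub_re, one_re]
    linarith [hw.1]
  set f : ℂ → Y := fun w => if w ∈ slitPlane then A (1 - w) else B w with hf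
  set g : ℂ → Y := fun w => if w ∈ slitPlane then A (1 - w⁻¹) else C (w / (w - 1)) with hg
  have hfA : ∀ w, w ∈ slitPlane → f w = A (1 - w) := fun w hw => if_pos hw
  have hgA : ∀ w, w ∈ slitPlane → g w = A (1 - w⁻¹) := fun w hw => if_pos hw
  have hfB : ∀ w, 1 - w ∈ slitPlane → f w = B w := by
    intro w hw
    by_cases h : w ∈ slitPlane
    · rw [hfA w h, hAB w h hw]
    · exact if_neg h
  have hgC : ∀ w, 1 - w ∈ slitPlane → g w = C (w / (w - 1)) := by
    intro w hw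
    by_cases h : w ∈ slitPlane
    · rw [hgA w h, hCA w h hw]
    · exact if_neg h
  have ho : IsOpen {w : ℂ | 1 - w ∈ slitPlane} :=
    isOpen_slitPlane.preimage (continuous_const.sub continuous_id)
  have hfc : Continuous f := by
    rw [continuous_iff_continuousAt]
    intro w
    by_cases h : w ∈ slitPlane
    · have h1 : ContinuousAt (fun w => A (1 - w)) w := by
        refine ContinuousAt.comp (g := A) (f := fun w => 1 - w) (hA _ ?_) (by fun_prop)
        simpa using h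
      refine h1.congr ?_
      filter_upwards [isOpen_slitPlane.mem_nhds h] with v hv
      exact (hfA v hv).symm
    · refine (hB w (hneg w h)).congr ?_
      filter_upwards [ho.mem_nhds (hneg w h)] with v hv
      exact (hfB v hv).symm
  have hgc : Continuous g := by
    rw [continuous_iff_continuousAt]
    intro w
    by_cases h : w ∈ slitPlane
    · have h0 : w ≠ 0 := slitPlane_ne_zero h
      have h1 : ContinuousAt (fun w => A (1 - w⁻¹)) w := by
        refine ContinuousAt.comp (g := A) (f := fun w : ℂ => 1 - w⁻¹) (hA _ ?_)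
          (continuousAt_const.sub (continuousAt_inv₀ h0))
        simpa using inv_slit h
      refine h1.congr ?_
      filter_upwards [isOpen_slitPlane.mem_nhds h] with v hv
      exact (hgA v hv).symm
    · have h3 := hneg w h
      have h4 : w - 1 ≠ 0 := fun h' => slitPlane_ne_zero h3 (by linear_combination -h')
      have h1 : ContinuousAt (fun w => C (w / (w - 1))) w := by
        refine ContinuousAt.comp (g := C) (f := fun w : ℂ => w / (w - 1))
          (hC _ (one_sub_inv_mem h3)) ?_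
        exact continuousAt_id.div (by fun_prop) h4
      refine h1.congr ?_
      filter_upwards [ho.mem_nhds h3] with v hv
      exact (hgC v hv).symm
  have hinv : ∀ w : ℂ, w ≠ 0 → g w = f w⁻¹ := by
    intro w hw
    by_cases h : w ∈ slitPlane
    · rw [hgA w h, hfA w⁻¹ (inv_slit h)]
    · -- limit from the non real points
      have hne := neBot_nonreal w
      have h1 : Tendsto g (𝓝[{z : ℂ | z.im ≠ 0}] w) (𝓝 (g w)) :=
        hgc.continuousAt.tendsto.mono_left nhdsWithin_le_nhds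
      have h2 : Tendsto (fun z => f z⁻¹) (𝓝[{z : ℂ | z.im ≠ 0}] w) (𝓝 (f w⁻¹)) :=
        (ContinuousAt.comp (g := f) (f := fun z : ℂ => z⁻¹) hfc.continuousAt
          (continuousAt_inv₀ hw)).tendsto.mono_left nhdsWithin_le_nhds
      refine tendsto_nhds_unique (h1.congr' ?_) h2
      filter_upwards [self_mem_nhdsWithin] with z hz
      have hz' : z ∈ slitPlane := Or.inr hz
      rw [hgA z hz', hfA z⁻¹ (inv_slit hz')]
  exact ⟨⟨⟨f, hfc⟩, ⟨g, hgc⟩, hinv⟩, hfB, hfA, hgC, hgA⟩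


theorem limit_eq [T2Space Y] {k k' : ℂ × ℂ → Y} {γ γ' : ℝ → ℂ × ℂ} (hk : ContinuousAt k (γ 0))
    (hk' : ContinuousAt k' (γ' 0)) (hγ : ContinuousAt γ 0) (hγ' : ContinuousAt γ' 0)
    (h : ∀ᶠ t : ℝ in 𝓝[>] 0, k (γ t) = k' (γ' t)) : k (γ 0) = k' (γ' 0) := by
  have h1 : Tendsto (fun t => k (γ t)) (𝓝[>] 0) (𝓝 (k (γ 0))) :=
    (ContinuousAt.comp (g := k) (f := γ) hk hγ).tendsto.mono_left nhdsWithin_le_nhds
  have h2 : Tendsto (fun t => k' (γ' t)) (𝓝[>] 0) (𝓝 (k' (γ' 0))) :=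
    (ContinuousAt.comp (g := k') (f := γ') hk' hγ').tendsto.mono_left nhdsWithin_le_nhds
  exact tendsto_nhds_unique (h1.congr' h) h2

/-- `k` is a chart with coordinates `κ` (on the star region) -/
structure IsCh (J : ℂ × ℂ → Y) (κ : ℂ × ℂ → ℂ × ℂ) (k : ℂ × ℂ → Y) : Prop where
  cont : ContinuousOn k R
  eq : ∀ w ∈ R, w.1 ≠ 0 → w.2 ≠ 0 → k w = J (κ w)

theorem IsCh.continuousAt {J : ℂ × ℂ → Y} {κ : ℂ × ℂ → ℂ × ℂ} {k : ℂ × ℂ → Y} (h : IsCh J κ k)
    {w : ℂ × ℂ} (hw : w ∈ R) : ContinuousAt k w :=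
  h.cont.continuousAt (Spec.isOpen_R.mem_nhds hw)

theorem zero_mem_R {v : ℂ} (hv : 1 - v ∈ slitPlane) : ((0 : ℂ), v) ∈ R := by
  rw [Spec.mem_R_iff]
  refine ⟨by simp, hv, by simp⟩

theorem mem_zero_R {v : ℂ} (hv : 1 - v ∈ slitPlane) : (v, (0 : ℂ)) ∈ R := by
  rw [Spec.mem_R_iff]
  refine ⟨hv, by simp, by simp⟩

/-- the general comparison -/
theorem IsCh.axis {J : ℂ × ℂ → Y} [T2Space Y] {κ κ' : ℂ × ℂ → ℂ × ℂ} {k k' : ℂ × ℂ → Y}
    (h : IsCh J κ k) (h' : IsCh J κ' k') {γ γ' : ℝ → ℂ × ℂ} (hR : γ 0 ∈ R) (hR' : γ' 0 ∈ R)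
    (hγ : ContinuousAt γ 0) (hγ' : ContinuousAt γ' 0)
    (hne : ∀ᶠ t : ℝ in 𝓝[>] 0, (γ t).1 ≠ 0 ∧ (γ t).2 ≠ 0 ∧ (γ' t).1 ≠ 0 ∧ (γ' t).2 ≠ 0 ∧
      κ (γ t) = κ' (γ' t)) : k (γ 0) = k' (γ' 0) := by
  refine limit_eq (h.continuousAt hR) (h'.continuousAt hR') hγ hγ' ?_
  have h1 : ∀ᶠ t : ℝ in 𝓝[>] 0, γ t ∈ R :=
    (hγ.tendsto.mono_left nhdsWithin_le_nhds).eventually (Spec.isOpen_R.mem_nhds hR)
  have h2 : ∀ᶠ t : ℝ in 𝓝[>] 0, γ' t ∈ R :=
    (hγ'.tendsto.mono_left nhdsWithin_le_nhds).eventually (Spec.isOpen_R.mem_nhds hR')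
  filter_upwards [h1, h2, hne] with t ht1 ht2 ⟨a, b, c, d, e⟩
  rw [h.eq _ ht1 a b, h'.eq _ ht2 c d, e]

/-- **The sphere `D''`** (`λ = 0`, coordinate `x = 1 - w`; `w = 1` the bad node, `w = 0, ∞` the
sections `x = 1, ∞`). -/
theorem exists_S2 [T2Space Y] {J : ℂ × ℂ → Y} {k5 kX k1 : ℂ × ℂ → Y} (h5 : IsCh J (kap 5) k5)
    (hX : IsCh J kapX kX) (h1 : IsCh J (kap 1) k1) :
    ∃ S : Sph Y, (∀ w, 1 - w ∈ slitPlane → S.f w = kX (0, w)) ∧
      (∀ w, w ∈ slitPlane → S.f w = k5 (0, 1 - w)) ∧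
      (∀ w, 1 - w ∈ slitPlane → S.g w = k1 (0, w / (w - 1))) ∧
      (∀ w, w ∈ slitPlane → S.g w = k5 (0, 1 - w⁻¹)) := by
  refine exists_sph (A := fun v => k5 (0, v)) (B := fun v => kX (0, v)) (C := fun v => k1 (0, v))
    ?_ ?_ ?_ ?_ ?_
  · intro v hv
    exact ContinuousAt.comp (g := k5) (f := fun v : ℂ => ((0 : ℂ), v))
      (h5.continuousAt (zero_mem_R hv)) (by fun_prop)
  · intro v hv
    exact ContinuousAt.comp (g := kX) (f := fun v : ℂ => ((0 : ℂ), v))
      (hX.continuousAt (zero_mem_R hv)) (by fun_prop)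
  · intro v hv
    exact ContinuousAt.comp (g := k1) (f := fun v : ℂ => ((0 : ℂ), v))
      (h1.continuousAt (zero_mem_R hv)) (by fun_prop)
  · intro w hw hw'
    have hw0 : w ≠ 0 := slitPlane_ne_zero hw
    have hw1 : 1 - w ≠ 0 := slitPlane_ne_zero hw'
    have key := h5.axis hX (γ := fun t : ℝ => ((t : ℂ), (1 - w) / (1 - t * w)))
      (γ' := fun t : ℝ => ((t : ℂ), w)) (by simpa using zero_mem_R (v := 1 - w) (by simpa using hw))
      (by simpa using zero_mem_R hw')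
      (by
        refine ContinuousAt.prodMk (by fun_prop) ?_
        refine ContinuousAt.div (by fun_prop) (by fun_prop) (by simp)) (by fun_prop) ?_
    · simpa using key
    · have hev : ∀ᶠ t : ℝ in 𝓝[>] 0, (1 : ℂ) - t * w ≠ 0 := by
        have : ContinuousAt (fun t : ℝ => (1 : ℂ) - t * w) 0 := by fun_prop
        exact (this.tendsto.mono_left nhdsWithin_le_nhds).eventually
          (isOpen_ne.mem_nhds (by simp))
      filter_upwards [self_mem_nhdsWithin, hev] with t ht h2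
      have ht0 : (t : ℂ) ≠ 0 := ofReal_ne_zero.2 (ne_of_gt ht)
      refine ⟨ht0, div_ne_zero hw1 h2, ht0, hw0, ?_⟩
      simp only [kap, kapX, Prod.mk.injEq]
      refine ⟨trivial, ?_⟩
      field_simp
  · intro w hw hw'
    have hw0 : w ≠ 0 := slitPlane_ne_zero hw
    have hw1 : 1 - w ≠ 0 := slitPlane_ne_zero hw'
    have hw2 : w - 1 ≠ 0 := fun h => hw1 (by linear_combination -h)
    have key := h1.axis h5 (γ := fun t : ℝ => ((t : ℂ), w / (w - 1)))
      (γ' := fun t : ℝ => ((t : ℂ) * (w / (w - 1)), 1 - w⁻¹))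
      (by simpa using zero_mem_R (one_sub_inv_mem hw'))
      (by simpa using zero_mem_R (v := 1 - w⁻¹) (by simpa using inv_slit hw))
      (by fun_prop) (by fun_prop) ?_
    · simpa using key
    · filter_upwards [self_mem_nhdsWithin] with t ht
      have ht0 : (t : ℂ) ≠ 0 := ofReal_ne_zero.2 (ne_of_gt ht)
      have h3 : 1 - w⁻¹ = (w - 1) / w := by field_simp
      refine ⟨ht0, div_ne_zero hw0 hw2, mul_ne_zero ht0 (div_ne_zero hw0 hw2), ?_, ?_⟩
      · show 1 - w⁻¹ ≠ 0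
        rw [h3]
        exact div_ne_zero hw2 hw0
      · simp only [kap, Prod.mk.injEq, h3]
        constructor
        · field_simp
        · field_simp

/-- **The sphere `D'`** (`x = 0 = λ`, coordinate `λ/x = 1 - w`; `w = 1` the bad node, `w = 0, ∞` the
sections `x = λ`, `x = 0`). -/
theorem exists_S1 [T2Space Y] {J : ℂ × ℂ → Y} {k5 k6 k9 : ℂ × ℂ → Y} (h5 : IsCh J (kap 5) k5)
    (h6 : IsCh J (kap 6) k6) (h9 : IsCh J (kap 9) k9) :
    ∃ S : Sph Y, (∀ w, 1 - w ∈ slitPlane → S.f w = k6 (w, 0)) ∧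
      (∀ w, w ∈ slitPlane → S.f w = k5 (1 - w, 0)) ∧
      (∀ w, 1 - w ∈ slitPlane → S.g w = k9 (w / (w - 1), 0)) ∧
      (∀ w, w ∈ slitPlane → S.g w = k5 (1 - w⁻¹, 0)) := by
  refine exists_sph (A := fun v => k5 (v, 0)) (B := fun v => k6 (v, 0)) (C := fun v => k9 (v, 0))
    ?_ ?_ ?_ ?_ ?_
  · intro v hv
    exact ContinuousAt.comp (g := k5) (f := fun v : ℂ => (v, (0 : ℂ)))
      (h5.continuousAt (mem_zero_R hv)) (by fun_prop)
  · intro v hv
    exact ContinuousAt.comp (g := k6) (f := fun v : ℂ => (v, (0 : ℂ)))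
      (h6.continuousAt (mem_zero_R hv)) (by fun_prop)
  · intro v hv
    exact ContinuousAt.comp (g := k9) (f := fun v : ℂ => (v, (0 : ℂ)))
      (h9.continuousAt (mem_zero_R hv)) (by fun_prop)
  · intro w hw hw'
    have hw0 : w ≠ 0 := slitPlane_ne_zero hw
    have hw1 : 1 - w ≠ 0 := slitPlane_ne_zero hw'
    have key := h5.axis h6 (γ := fun t : ℝ => ((1 - w) / (1 - w * t), (t : ℂ)))
      (γ' := fun t : ℝ => (w, (t : ℂ))) (by simpa using mem_zero_R (v := 1 - w) (by simpa using hw))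
      (by simpa using mem_zero_R hw')
      (by
        refine ContinuousAt.prodMk ?_ (by fun_prop)
        refine ContinuousAt.div (by fun_prop) (by fun_prop) (by simp)) (by fun_prop) ?_
    · simpa using key
    · have hev : ∀ᶠ t : ℝ in 𝓝[>] 0, (1 : ℂ) - w * t ≠ 0 := by
        have : ContinuousAt (fun t : ℝ => (1 : ℂ) - w * t) 0 := by fun_prop
        exact (this.tendsto.mono_left nhdsWithin_le_nhds).eventually
          (isOpen_ne.mem_nhds (by simp))
      filter_upwards [self_mem_nhdsWithin, hev] with t ht h2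
      have ht0 : (t : ℂ) ≠ 0 := ofReal_ne_zero.2 (ne_of_gt ht)
      refine ⟨div_ne_zero hw1 h2, ht0, hw0, ht0, ?_⟩
      simp only [kap, Prod.mk.injEq]
      refine ⟨trivial, ?_⟩
      field_simp
  · intro w hw hw'
    have hw0 : w ≠ 0 := slitPlane_ne_zero hw
    have hw1 : 1 - w ≠ 0 := slitPlane_ne_zero hw'
    have hw2 : w - 1 ≠ 0 := fun h => hw1 (by linear_combination -h)
    have key := h9.axis h5 (γ := fun t : ℝ => (w / (w - 1), (t : ℂ)))
      (γ' := fun t : ℝ => (1 - w⁻¹, (w / (w - 1)) * (t : ℂ)))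
      (by simpa using mem_zero_R (one_sub_inv_mem hw'))
      (by simpa using mem_zero_R (v := 1 - w⁻¹) (by simpa using inv_slit hw))
      (by fun_prop) (by fun_prop) ?_
    · simpa using key
    · filter_upwards [self_mem_nhdsWithin] with t ht
      have ht0 : (t : ℂ) ≠ 0 := ofReal_ne_zero.2 (ne_of_gt ht)
      have h3 : 1 - w⁻¹ = (w - 1) / w := by field_simp
      refine ⟨div_ne_zero hw0 hw2, ht0, ?_, mul_ne_zero (div_ne_zero hw0 hw2) ht0, ?_⟩
      · show 1 - w⁻¹ ≠ 0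
        rw [h3]
        exact div_ne_zero hw2 hw0
      · simp only [kap, Prod.mk.injEq, h3]
        constructor
        · trivial
        · field_simp

end Vale.Agent.P300.H707
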