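import Vale.Agent.P300.H707.SphY
import Vale.Agent.P300.H242.Geo

/-!
# [SPH] the two spheres of the bad fibre in 242's `Y = M̄_{0,5}`
-/

open Set Filter Topology Complex

namespace Vale.Agent.P300.H707

open Vale.Agent.P300.H839 Vale.Agent.P300.H142 Vale.Agent.P300.H242

theorem isCh_kapY (ν : Fin 15) : IsCh io (H142.kap ν) (kapY ν) where
  cont := ((chartY ν).continuousOn).mono R_sub_Om
  eq w hw h1 h2 := kapY_eq ν (Spec.mem_W_of_mem_R hw h1 h2)

theorem isCh_kapYX : IsCh io H142.kapX kapYX where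
  cont := ((chart owX).continuousOn).mono R_sub_Om
  eq w hw h1 h2 := kapYX_eq (Spec.mem_W_of_mem_R hw h1 h2)

theorem mem_R_zero {v : ℂ} : (v, (0 : ℂ)) ∈ R ↔ 1 - v ∈ slitPlane := by
  rw [Spec.mem_R_iff]
  constructor
  · exact fun h => h.1
  · exact fun h => ⟨h, by simp, by simp⟩

theorem zero_mem_R_iff {v : ℂ} : ((0 : ℂ), v) ∈ R ↔ 1 - v ∈ slitPlane := by
  rw [Spec.mem_R_iff]
  constructor
  · exact fun h => h.2.1
  · exact fun h => ⟨by simp, h, by simp⟩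

/-- the two spheres of the bad fibre: `S false` = `D'` (`v = 0` at the node of chart 5), `S true` =
`D''` (`u = 0`). -/
noncomputable def S : Bool → Sph H242.Y
  | false => Classical.choose (exists_S1 (isCh_kapY 5) (isCh_kapY 6) (isCh_kapY 9))
  | true => Classical.choose (exists_S2 (isCh_kapY 5) isCh_kapYX (isCh_kapY 1))

theorem S_f1 {w : ℂ} (hw : (w, (0 : ℂ)) ∈ R) : (S false).f w = kapY 6 (w, 0) :=
  (Classical.choose_spec (exists_S1 (isCh_kapY 5) (isCh_kapY 6) (isCh_kapY 9))).1 w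
    (mem_R_zero.1 hw)

theorem S_f0 {w : ℂ} (hw : (1 - w, (0 : ℂ)) ∈ R) : (S false).f w = kapY 5 (1 - w, 0) :=
  (Classical.choose_spec (exists_S1 (isCh_kapY 5) (isCh_kapY 6) (isCh_kapY 9))).2.1 w
    (by simpa using mem_R_zero.1 hw)

theorem S_g1 {w : ℂ} (hw : 1 - w ∈ slitPlane) : (S false).g w = kapY 9 (w / (w - 1), 0) :=
  (Classical.choose_spec (exists_S1 (isCh_kapY 5) (isCh_kapY 6) (isCh_kapY 9))).2.2.1 w hw

theorem S_g0 {w : ℂ} (hw : w ∈ slitPlane) : (S false).g w = kapY 5 (1 - w⁻¹, 0) :=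
  (Classical.choose_spec (exists_S1 (isCh_kapY 5) (isCh_kapY 6) (isCh_kapY 9))).2.2.2 w hw

theorem S_f1' {w : ℂ} (hw : ((0 : ℂ), w) ∈ R) : (S true).f w = kapYX (0, w) :=
  (Classical.choose_spec (exists_S2 (isCh_kapY 5) isCh_kapYX (isCh_kapY 1))).1 w
    (zero_mem_R_iff.1 hw)

theorem S_f0' {w : ℂ} (hw : ((0 : ℂ), 1 - w) ∈ R) : (S true).f w = kapY 5 (0, 1 - w) :=
  (Classical.choose_spec (exists_S2 (isCh_kapY 5) isCh_kapYX (isCh_kapY 1))).2.1 w
    (by simpa using zero_mem_R_iff.1 hw)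

theorem S_g1' {w : ℂ} (hw : 1 - w ∈ slitPlane) : (S true).g w = kapY 1 (0, w / (w - 1)) :=
  (Classical.choose_spec (exists_S2 (isCh_kapY 5) isCh_kapYX (isCh_kapY 1))).2.2.1 w hw

theorem S_g0' {w : ℂ} (hw : w ∈ slitPlane) : (S true).g w = kapY 5 (0, 1 - w⁻¹) :=
  (Classical.choose_spec (exists_S2 (isCh_kapY 5) isCh_kapYX (isCh_kapY 1))).2.2.2 w hw

/-- the bad node -/
theorem S_one (b : Bool) : (S b).f 1 = kapY 5 (0, 0) := by
  cases b
  · rw [S_f0 (mem_R_zero.2 (by simp))]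
    simp
  · rw [S_f0' (zero_mem_R_iff.2 (by simp))]
    simp

end Vale.Agent.P300.H707
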