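import Mathlib

/-!
# [EXTL] extension of lifts through a proper map with finite fibres
-/

open Set Filter Topology

namespace Vale.Agent.P300.H707

variable {X Y Q : Type*} [TopologicalSpace X] [TopologicalSpace Y] [TopologicalSpace Q]

/-- `D` is locally non separating: every point of `Q` has arbitrarily small neighbourhoods `N`
for which `N ∩ D` is preconnected. -/
def LocNonSep (D : Set Q) : Prop :=
  ∀ q : Q, ∀ U ∈ 𝓝 q, ∃ N ∈ 𝓝 q, N ⊆ U ∧ IsPreconnected (N ∩ D)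

/-- A cluster point over `h q` is a limit. -/
theorem tendsto_of_clusterPt [T2Space X] {π : X → Y} (hπ : IsClosedMap π)
    {y : Y} (hfin : (π ⁻¹' {y}).Finite) {D : Set Q} {q : Q}
    (hns : ∀ U ∈ 𝓝 q, ∃ N ∈ 𝓝 q, N ⊆ U ∧ IsPreconnected (N ∩ D))
    {f : Q → X} (hf : ContinuousOn f D)
    (hy : Tendsto (π ∘ f) (𝓝[D] q) (𝓝 y)) {x : X} (hx : MapClusterPt x (𝓝[D] q) f)
    (hxy : π x = y) : Tendsto f (𝓝[D] q) (𝓝 x) := by
  rw [tendsto_nhds]
  intro A' hA' hxA'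
  -- separate `x` from the other points of the fibre
  have hS : ((π ⁻¹' {y}) \ {x}).Finite := hfin.subset sdiff_subset
  obtain ⟨A, B, hA, hB, hxA, hSB, hAB⟩ :=
    SeparatedNhds.of_isCompact_isCompact (isCompact_singleton (x := x)) hS.isCompact
      (by simp)
  -- a neighbourhood of `y` whose preimage is in `A ∩ A' ∪ B`
  have hfibre : π ⁻¹' {y} ⊆ (A ∩ A') ∪ B := by
    intro z hz
    by_cases hzx : z = x
    · subst hzx
      exact Or.inl ⟨hxA rfl, hxA'⟩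
    · exact Or.inr (hSB ⟨hz, hzx⟩)
  have hO : IsOpen ((A ∩ A') ∪ B) := (hA.inter hA').union hB
  have hW : {w : Y | π ⁻¹' {w} ⊆ (A ∩ A') ∪ B} ∈ 𝓝 y := by
    have hcl : IsClosed (π '' ((A ∩ A') ∪ B)ᶜ) := hπ _ hO.isClosed_compl
    refine mem_of_superset (hcl.isOpen_compl.mem_nhds ?_) ?_
    · rintro ⟨z, hz, hzy⟩
      exact hz (hfibre hzy)
    · intro w hw z hz
      by_contra hcon
      exact hw ⟨z, hcon, hz⟩
  have hev : ∀ᶠ q' in 𝓝[D] q, f q' ∈ (A ∩ A') ∪ B := by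
    filter_upwards [hy hW] with q' hq'
    exact hq' rfl
  rw [eventually_nhdsWithin_iff] at hev
  obtain ⟨N, hN, hNsub, hNpre⟩ := hns _ hev
  have himg : f '' (N ∩ D) ⊆ (A ∩ A') ∪ B := by
    rintro _ ⟨q', ⟨hq'N, hq'D⟩, rfl⟩
    exact hNsub hq'N hq'D
  have hpre : IsPreconnected (f '' (N ∩ D)) := hNpre.image f (hf.mono inter_subset_right)
  have hdisj : Disjoint (A ∩ A') B := hAB.mono_left inter_subset_left
  -- `f '' (N ∩ D)` meets `A ∩ A'`
  have hmeet : (f '' (N ∩ D) ∩ (A ∩ A')).Nonempty := by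
    have h1 : (A ∩ A') ∈ 𝓝 x := (hA.inter hA').mem_nhds ⟨hxA rfl, hxA'⟩
    have h2 := (mapClusterPt_iff_frequently.1 hx) _ h1
    have h3 : ∀ᶠ q' in 𝓝[D] q, q' ∈ N ∩ D :=
      inter_mem (mem_nhdsWithin_of_mem_nhds hN) self_mem_nhdsWithin
    obtain ⟨q', hq', hq''⟩ := (h2.and_eventually h3).exists
    exact ⟨f q', ⟨q', hq'', rfl⟩, hq'⟩
  have hsub : f '' (N ∩ D) ⊆ A ∩ A' :=
    hpre.subset_left_of_subset_union (hA.inter hA') hB hdisj himg hmeet
  have hND : N ∩ D ∈ 𝓝[D] q := inter_mem (mem_nhdsWithin_of_mem_nhds hN) self_mem_nhdsWithin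
  filter_upwards [hND] with q' hq'
  exact (hsub ⟨q', hq', rfl⟩).2

/-- [EXTL], pointwise form. -/
theorem exists_tendsto [T2Space X] [T2Space Y] {π : X → Y} (hπ : IsProperMap π)
    (hfin : ∀ y, (π ⁻¹' {y}).Finite) {D : Set Q} {q : Q} (hq : (𝓝[D] q).NeBot)
    (hns : ∀ U ∈ 𝓝 q, ∃ N ∈ 𝓝 q, N ⊆ U ∧ IsPreconnected (N ∩ D))
    {f : Q → X} (hf : ContinuousOn f D) {y : Y} (hy : Tendsto (π ∘ f) (𝓝[D] q) (𝓝 y)) :
    ∃ x, π x = y ∧ Tendsto f (𝓝[D] q) (𝓝 x) := by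
  have h1 : MapClusterPt y (map f (𝓝[D] q)) π := by
    have : MapClusterPt y (𝓝[D] q) (π ∘ f) := hy.mapClusterPt
    exact this
  obtain ⟨x, hxy, hx⟩ := hπ.clusterPt_of_mapClusterPt h1
  exact ⟨x, hxy, tendsto_of_clusterPt hπ.isClosedMap (hfin y) hns hf hy hx hxy⟩

/-- [EXTL] A continuous lift defined on a dense locally non separating set extends. -/
theorem exists_extension [T2Space X] [RegularSpace X] [T2Space Y] {π : X → Y}
    (hπ : IsProperMap π) (hfin : ∀ y, (π ⁻¹' {y}).Finite) {D : Set Q} (hD : Dense D)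
    (hns : LocNonSep D) {f : Q → X} (hf : ContinuousOn f D) {h : Q → Y} (hh : Continuous h)
    (hfh : ∀ q ∈ D, π (f q) = h q) :
    ∃ F : Q → X, Continuous F ∧ (∀ q ∈ D, F q = f q) ∧ (∀ q, π (F q) = h q) ∧
      ∀ q, Tendsto f (𝓝[D] q) (𝓝 (F q)) := by
  have hne : ∀ q, (𝓝[D] q).NeBot := fun q => mem_closure_iff_nhdsWithin_neBot.1 (hD q)
  have hlim : ∀ q, ∃ x, π x = h q ∧ Tendsto f (𝓝[D] q) (𝓝 x) := by
    intro q
    refine exists_tendsto hπ hfin (hne q) (hns q) hf ?_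
    have h1 : Tendsto h (𝓝[D] q) (𝓝 (h q)) := hh.continuousAt.tendsto.mono_left nhdsWithin_le_nhds
    refine h1.congr' ?_
    filter_upwards [self_mem_nhdsWithin] with q' hq'
    exact (hfh q' hq').symm
  refine ⟨extendFrom D f, continuous_extendFrom hD fun q => ⟨_, (hlim q).choose_spec.2⟩, ?_, ?_, ?_⟩
  · intro q hq
    have := hne q
    exact tendsto_nhds_unique (tendsto_extendFrom ⟨_, (hlim q).choose_spec.2⟩) (hf q hq)
  · intro q
    have := hne q
    obtain ⟨x, hx, hx'⟩ := hlim q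
    rw [extendFrom_eq (hD q) hx']
    exact hx
  · intro q
    exact tendsto_extendFrom ⟨_, (hlim q).choose_spec.2⟩

/-- Uniqueness of the extension. -/
theorem extension_unique [T2Space X] {D : Set Q} (hD : Dense D) {F G : Q → X}
    (hF : Continuous F) (hG : Continuous G) (h : ∀ q ∈ D, F q = G q) : F = G :=
  hF.ext_on hD hG h

/-- [EXTL] for a compact total space. -/
theorem exists_extension_of_compact [CompactSpace X] [T2Space X] [T2Space Y] {π : X → Y}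
    (hπ : Continuous π) (hfin : ∀ y, (π ⁻¹' {y}).Finite) {D : Set Q} (hD : Dense D)
    (hns : LocNonSep D) {f : Q → X} (hf : ContinuousOn f D) {h : Q → Y} (hh : Continuous h)
    (hfh : ∀ q ∈ D, π (f q) = h q) :
    ∃ F : Q → X, Continuous F ∧ (∀ q ∈ D, F q = f q) ∧ (∀ q, π (F q) = h q) ∧
      ∀ q, Tendsto f (𝓝[D] q) (𝓝 (F q)) :=
  exists_extension hπ.isProperMap hfin hD hns hf hh hfh

end Vale.Agent.P300.H707
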