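import Vale.Agent.P300.H707.Ext

/-!
# Locally non separating sets in `OnePoint ℂ × [0,1]`
-/

open Set Filter Topology

namespace Vale.Agent.P300.H707

theorem LocNonSep.prod {Q R : Type*} [TopologicalSpace Q] [TopologicalSpace R] {D : Set Q}
    {E : Set R} (hD : LocNonSep D) (hE : LocNonSep E) : LocNonSep (D ×ˢ E) := by
  rintro ⟨q, r⟩ U hU
  rw [nhds_prod_eq, mem_prod_iff] at hU
  obtain ⟨U1, hU1, U2, hU2, hsub⟩ := hU
  obtain ⟨N1, hN1, hN1U, hN1p⟩ := hD q U1 hU1
  obtain ⟨N2, hN2, hN2U, hN2p⟩ := hE r U2 hU2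
  refine ⟨N1 ×ˢ N2, prod_mem_nhds hN1 hN2, (prod_mono hN1U hN2U).trans hsub, ?_⟩
  rw [prod_inter_prod]
  exact hN1p.prod hN2p

/-- the punctured ball is connected -/
theorem isPreconnected_punctured_ball (w : ℂ) (ε : ℝ) :
    IsPreconnected (Metric.ball w ε \ {w}) := by
  have h1 : IsPreconnected ((Ioo (0:ℝ) ε) ×ˢ (univ : Set ℝ)) :=
    isPreconnected_Ioo.prod isPreconnected_univ
  have h2 : (fun p : ℝ × ℝ => w + p.1 * Complex.exp (p.2 * Complex.I)) ''
      ((Ioo (0:ℝ) ε) ×ˢ (univ : Set ℝ)) = Metric.ball w ε \ {w} := by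
    ext z
    constructor
    · rintro ⟨⟨a, b⟩, ⟨⟨ha, ha'⟩, -⟩, rfl⟩
      have hn : ‖(a:ℂ) * Complex.exp (b * Complex.I)‖ = a := by
        rw [norm_mul, Complex.norm_exp_ofReal_mul_I, mul_one, Complex.norm_real,
          Real.norm_eq_abs, abs_of_pos ha]
      refine ⟨?_, ?_⟩
      · simp only [Metric.mem_ball, dist_eq_norm, add_sub_cancel_left, hn]
        exact ha'
      · intro h
        have h' : (a:ℂ) * Complex.exp (b * Complex.I) = 0 := by
          simpa using h
        rw [h', norm_zero] at hn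
        exact ha.ne hn
    · rintro ⟨hz, hzw⟩
      have hne : z - w ≠ 0 := sub_ne_zero.2 hzw
      refine ⟨(‖z - w‖, (z - w).arg), ⟨⟨norm_pos_iff.2 hne, ?_⟩, mem_univ _⟩, ?_⟩
      · simpa [dist_eq_norm] using hz
      · simp only [Complex.norm_mul_exp_arg_mul_I]
        ring
  rw [← h2]
  exact h1.image _ (by fun_prop)

/-- the complement of a closed ball is connected -/
theorem isPreconnected_compl_closedBall (R : ℝ) (hR : 0 ≤ R) :
    IsPreconnected {w : ℂ | R < ‖w‖} := by
  have h1 : IsPreconnected ((Ioi R) ×ˢ (univ : Set ℝ)) :=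
    isPreconnected_Ioi.prod isPreconnected_univ
  have h2 : (fun p : ℝ × ℝ => (p.1 : ℂ) * Complex.exp (p.2 * Complex.I)) ''
      ((Ioi R) ×ˢ (univ : Set ℝ)) = {w : ℂ | R < ‖w‖} := by
    ext z
    constructor
    · rintro ⟨⟨a, b⟩, ⟨ha, -⟩, rfl⟩
      have ha0 : 0 < a := lt_of_le_of_lt hR ha
      have hn : ‖(a:ℂ) * Complex.exp (b * Complex.I)‖ = a := by
        rw [norm_mul, Complex.norm_exp_ofReal_mul_I, mul_one, Complex.norm_real,
          Real.norm_eq_abs, abs_of_pos ha0]
      show R < ‖(a:ℂ) * Complex.exp (b * Complex.I)‖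
      rw [hn]
      exact ha
    · intro hz
      refine ⟨(‖z‖, z.arg), ⟨hz, mem_univ _⟩, ?_⟩
      simp only [Complex.norm_mul_exp_arg_mul_I]
  rw [← h2]
  exact h1.image _ (by fun_prop)

/-- the finite part of the sphere minus a set -/
def PS (S : Set ℂ) : Set (OnePoint ℂ) := (fun w : ℂ => (w : OnePoint ℂ)) '' Sᶜ

theorem mem_PS {S : Set ℂ} {w : ℂ} : (w : OnePoint ℂ) ∈ PS S ↔ w ∉ S := by
  constructor
  · rintro ⟨v, hv, h⟩
    rw [OnePoint.coe_injective h] at hv
    exact hv
  · intro h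
    exact ⟨w, h, rfl⟩

theorem infty_notMem_PS {S : Set ℂ} : (OnePoint.infty : OnePoint ℂ) ∉ PS S := by
  rintro ⟨v, _, h⟩
  exact OnePoint.coe_ne_infty _ h

theorem locNonSep_PS {S : Set ℂ} (hS : S.Finite) : LocNonSep (PS S) := by
  intro q
  induction q using OnePoint.rec with
  | infty =>
    intro U hU
    have hU' := hU
    -- a ball containing S and the complement of U
    have hcl : ∃ R : ℝ, 0 ≤ R ∧ ∀ w : ℂ, R < ‖w‖ → (w : OnePoint ℂ) ∈ U ∧ w ∉ S := by
      have h1 : {w : ℂ | (w : OnePoint ℂ) ∈ U} ∈ Filter.coclosedCompact ℂ := by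
        have := OnePoint.comap_coe_nhds_infty (X := ℂ)
        rw [← this]
        exact ⟨U, hU, Subset.rfl⟩
      rw [Filter.coclosedCompact_eq_cocompact] at h1
      rw [Metric.cobounded_eq_cocompact.symm] at h1
      obtain ⟨R, -, hR⟩ := (Metric.hasBasis_cobounded_compl_closedBall (0:ℂ)).mem_iff.1 h1
      obtain ⟨R', hR'⟩ := hS.isBounded.subset_closedBall (0:ℂ)
      refine ⟨max (max R R') 0, le_max_right _ _, fun w hw => ⟨?_, ?_⟩⟩
      · refine hR ?_
        simp only [mem_compl_iff, Metric.mem_closedBall, dist_zero_right, not_le]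
        exact lt_of_le_of_lt ((le_max_left _ _).trans (le_max_left _ _)) hw
      · intro hwS
        have := hR' hwS
        simp only [Metric.mem_closedBall, dist_zero_right] at this
        exact absurd this (not_le.2 (lt_of_le_of_lt ((le_max_right _ _).trans (le_max_left _ _)) hw))
    obtain ⟨R, hR0, hR⟩ := hcl
    refine ⟨((fun w : ℂ => (w : OnePoint ℂ)) '' Metric.closedBall (0:ℂ) R)ᶜ ∩ U, ?_,
      inter_subset_right, ?_⟩
    · refine inter_mem ?_ hU
      refine (OnePoint.isOpen_compl_image_coe.2 ⟨Metric.isClosed_closedBall,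
        isCompact_closedBall _ _⟩).mem_nhds ?_
      rintro ⟨w, _, h⟩
      exact OnePoint.coe_ne_infty _ h
    · have : ((fun w : ℂ => (w : OnePoint ℂ)) '' Metric.closedBall (0:ℂ) R)ᶜ ∩ U ∩ PS S =
          (fun w : ℂ => (w : OnePoint ℂ)) '' {w : ℂ | R < ‖w‖} := by
        ext q
        constructor
        · rintro ⟨⟨h1, h2⟩, ⟨w, hw, rfl⟩⟩
          refine ⟨w, ?_, rfl⟩
          by_contra hcon
          apply h1
          refine ⟨w, ?_, rfl⟩
          simpa using hcon
        · rintro ⟨w, hw, rfl⟩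
          refine ⟨⟨?_, (hR w hw).1⟩, mem_PS.2 (hR w hw).2⟩
          rintro ⟨v, hv, hvw⟩
          have hvw' : v = w := OnePoint.coe_injective hvw
          subst hvw'
          simp only [Metric.mem_closedBall, dist_zero_right] at hv
          exact absurd hv (not_le.2 hw)
      rw [this]
      exact (isPreconnected_compl_closedBall R hR0).image _ OnePoint.continuous_coe.continuousOn
  | coe w0 =>
    intro U hU
    have h1 : {w : ℂ | (w : OnePoint ℂ) ∈ U} ∈ 𝓝 w0 :=
      OnePoint.continuous_coe.continuousAt hU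
    have h2 : (S \ {w0})ᶜ ∈ 𝓝 w0 :=
      (hS.subset sdiff_subset).isClosed.isOpen_compl.mem_nhds (fun h => h.2 rfl)
    obtain ⟨ε, hε, hball⟩ := Metric.mem_nhds_iff.1 (inter_mem h1 h2)
    refine ⟨(fun w : ℂ => (w : OnePoint ℂ)) '' Metric.ball w0 ε, ?_, ?_, ?_⟩
    · exact (OnePoint.isOpenEmbedding_coe.isOpenMap _ Metric.isOpen_ball).mem_nhds
        ⟨w0, Metric.mem_ball_self hε, rfl⟩
    · rintro _ ⟨w, hw, rfl⟩
      exact (hball hw).1
    · have : (fun w : ℂ => (w : OnePoint ℂ)) '' Metric.ball w0 ε ∩ PS S =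
          (fun w : ℂ => (w : OnePoint ℂ)) '' (Metric.ball w0 ε \ S) := by
        rw [PS, ← image_inter OnePoint.coe_injective]
        rfl
      rw [this]
      refine IsPreconnected.image ?_ _ OnePoint.continuous_coe.continuousOn
      by_cases hw0 : w0 ∈ S
      · have : Metric.ball w0 ε \ S = Metric.ball w0 ε \ {w0} := by
          ext w
          constructor
          · rintro ⟨h3, h4⟩
            exact ⟨h3, fun h5 => h4 (by rw [mem_singleton_iff.1 h5]; exact hw0)⟩
          · rintro ⟨h3, h4⟩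
            exact ⟨h3, fun h5 => (hball h3).2 ⟨h5, h4⟩⟩
        rw [this]
        exact isPreconnected_punctured_ball w0 ε
      · have : Metric.ball w0 ε \ S = Metric.ball w0 ε := by
          ext w
          constructor
          · rintro ⟨h3, h4⟩
            exact h3
          · intro h3
            refine ⟨h3, fun h5 => (hball h3).2 ⟨h5, ?_⟩⟩
            rintro rfl
            exact hw0 h5
        rw [this]
        exact (convex_ball w0 ε).isPreconnected

theorem dense_PS {S : Set ℂ} (hS : S.Finite) : Dense (PS S) := by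
  have h1 : Dense (Sᶜ : Set ℂ) := hS.countable.dense_compl ℝ
  have h2 : DenseRange (fun w : ℂ => (w : OnePoint ℂ)) := OnePoint.denseRange_coe
  exact h2.dense_image OnePoint.continuous_coe h1

/-- the positive part of the unit interval -/
theorem locNonSep_pos : LocNonSep {t : unitInterval | 0 < t} := by
  intro t U hU
  obtain ⟨ε, hε, hball⟩ := Metric.mem_nhds_iff.1 hU
  refine ⟨Metric.ball t ε, Metric.ball_mem_nhds t hε, hball, ?_⟩
  have hord : (Metric.ball t ε ∩ {t : unitInterval | 0 < t}).OrdConnected := by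
    refine ⟨?_⟩
    rintro x ⟨hx, hx0⟩ y ⟨hy, _⟩ z ⟨hz1, hz2⟩
    refine ⟨?_, lt_of_lt_of_le hx0 hz1⟩
    have hx' : |(x:ℝ) - t| < ε := by
      have := hx
      rw [Metric.mem_ball, Subtype.dist_eq, Real.dist_eq] at this
      exact this
    have hy' : |(y:ℝ) - t| < ε := by
      have := hy
      rw [Metric.mem_ball, Subtype.dist_eq, Real.dist_eq] at this
      exact this
    rw [Metric.mem_ball, Subtype.dist_eq, Real.dist_eq]
    rw [abs_lt] at hx' hy' ⊢
    have h1 : (x:ℝ) ≤ z := hz1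
    have h2 : (z:ℝ) ≤ y := hz2
    constructor <;> linarith
  exact hord.isPreconnected

theorem dense_pos : Dense {t : unitInterval | 0 < t} := by
  intro t
  rw [Metric.mem_closure_iff]
  intro ε hε
  by_cases ht : 0 < t
  · exact ⟨t, ht, by simpa using hε⟩
  · have ht0 : t = 0 := le_antisymm (not_lt.1 ht) t.2.1
    subst ht0
    refine ⟨⟨min (ε/2) 1, ?_, min_le_right _ _⟩, ?_, ?_⟩
    · positivity
    · show (0:ℝ) < min (ε/2) 1
      positivity
    · rw [Subtype.dist_eq, Real.dist_eq]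
      have h1 : min (ε/2) 1 ≤ ε/2 := min_le_left _ _
      have h2 : (0:ℝ) < min (ε/2) 1 := by positivity
      have h3 : |(0:ℝ) - min (ε/2) 1| < ε := by
        rw [zero_sub, abs_neg, abs_of_pos h2]
        linarith
      exact h3

end Vale.Agent.P300.H707
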