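import Vale.Agent.P300.H707.NonSep

/-!
# [STRIP] the lift of `z ↦ 1 - exp z` through a completed covering

`π : X → Y` a proper map with finite fibres (the completion of a covering), `σ (r, τ) ∈ Y` a family
of slices, `sm, s0, s1` the sheets over the three real intervals.  A sequence of labels `f k` with
`f (k+1) = B (f k)`, `A (f k) = f k` gives a continuous lift of `(z, τ) ↦ σ (1 - exp z, τ)`.
-/

open Set Filter Topology Complex

namespace Vale.Agent.P300.H707

/-- complement of `[0,∞)` -/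
def Rm : Set ℂ := {r | r.im ≠ 0 ∨ r.re < 0}
/-- complement of `(-∞,0] ∪ [1,∞)` -/
def R0 : Set ℂ := {r | r.im ≠ 0 ∨ (0 < r.re ∧ r.re < 1)}
/-- complement of `(-∞,1]` -/
def R1 : Set ℂ := {r | r.im ≠ 0 ∨ 1 < r.re}

theorem isOpen_Rm : IsOpen Rm :=
  (isOpen_ne_fun continuous_im continuous_const).union (isOpen_lt continuous_re continuous_const)
theorem isOpen_R0 : IsOpen R0 :=
  (isOpen_ne_fun continuous_im continuous_const).union
    ((isOpen_lt continuous_const continuous_re).inter (isOpen_lt continuous_re continuous_const))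
theorem isOpen_R1 : IsOpen R1 :=
  (isOpen_ne_fun continuous_im continuous_const).union (isOpen_lt continuous_const continuous_re)

theorem isOpen_pos : IsOpen {p : ℂ × unitInterval | (0 : unitInterval) < p.2} := by
  have h : IsOpen {t : unitInterval | 0 < t} := isOpen_Ioi
  exact h.preimage continuous_snd

theorem isOpen_mem_pos {O : Set ℂ} (hO : IsOpen O) :
    IsOpen {p : ℂ × unitInterval | p.1 ∈ O ∧ (0 : unitInterval) < p.2} := by
  have h := (hO.preimage (continuous_fst (X := ℂ) (Y := unitInterval))).inter isOpen_pos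
  exact h

theorem ev_fst {P : ℂ → Prop} {z : ℂ} (τ : unitInterval) (h : ∀ᶠ w in 𝓝 z, P w) :
    ∀ᶠ q : ℂ × unitInterval in 𝓝 (z, τ), P q.1 := by
  have h1 : Tendsto (Prod.fst : ℂ × unitInterval → ℂ) (𝓝 (z, τ)) (𝓝 z) :=
    continuous_fst.continuousAt
  exact h1.eventually h

/-- continuity of a sheet along `r = 1 - exp z` -/
theorem cont_slice {X F : Type*} [TopologicalSpace X] {s : ℂ → unitInterval → F → X} {f : F}
    {O : Set ℂ} (hO : IsOpen O)
    (hs : ContinuousOn (fun p : ℂ × unitInterval => s p.1 p.2 f) {p | p.1 ∈ O ∧ 0 < p.2})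
    {z : ℂ} {τ : unitInterval} (hz : (1 - exp z) ∈ O) (hτ : 0 < τ) :
    ContinuousAt (fun q : ℂ × unitInterval => s (1 - exp q.1) q.2 f) (z, τ) := by
  have hopen : IsOpen {p : ℂ × unitInterval | p.1 ∈ O ∧ 0 < p.2} := isOpen_mem_pos hO
  have hmem : ((1 - exp z), τ) ∈ {p : ℂ × unitInterval | p.1 ∈ O ∧ 0 < p.2} := ⟨hz, hτ⟩
  have h1 : ContinuousAt (fun p : ℂ × unitInterval => s p.1 p.2 f) ((1 - exp z), τ) :=
    hs.continuousAt (hopen.mem_nhds hmem)
  have cpair : Continuous fun q : ℂ × unitInterval => ((1 - exp q.1), q.2) := by fun_prop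
  exact ContinuousAt.comp (g := fun p : ℂ × unitInterval => s p.1 p.2 f)
    (f := fun q : ℂ × unitInterval => ((1 - exp q.1), q.2)) h1 cpair.continuousAt

theorem ev_slice {O : Set ℂ} (hO : IsOpen O) {z : ℂ} (τ : unitInterval) (hz : (1 - exp z) ∈ O) :
    ∀ᶠ q : ℂ × unitInterval in 𝓝 (z, τ), (1 - exp q.1) ∈ O := by
  have cr : Continuous fun q : ℂ × unitInterval => (1 - exp q.1) := by fun_prop
  exact (hO.preimage cr).mem_nhds hz

structure SliceData {X Y : Type*} [TopologicalSpace X] [TopologicalSpace Y] (π : X → Y)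
    (F : Type*) where
  /-- the slices; `τ = 0` is the component of the bad fibre -/
  σ : ℂ × unitInterval → Y
  cσ : ContinuousOn σ {p | p.1 ≠ 1}
  sm : ℂ → unitInterval → F → X
  s0 : ℂ → unitInterval → F → X
  s1 : ℂ → unitInterval → F → X
  csm : ∀ f, ContinuousOn (fun p : ℂ × unitInterval => sm p.1 p.2 f)
    {p | p.1 ∈ Rm ∧ 0 < p.2}
  cs0 : ∀ f, ContinuousOn (fun p : ℂ × unitInterval => s0 p.1 p.2 f)
    {p | p.1 ∈ R0 ∧ 0 < p.2}
  cs1 : ∀ f, ContinuousOn (fun p : ℂ × unitInterval => s1 p.1 p.2 f)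
    {p | p.1 ∈ R1 ∧ 0 < p.2}
  psm : ∀ r τ f, r ∈ Rm → 0 < τ → π (sm r τ f) = σ (r, τ)
  ps0 : ∀ r τ f, r ∈ R0 → 0 < τ → π (s0 r τ f) = σ (r, τ)
  ps1 : ∀ r τ f, r ∈ R1 → 0 < τ → π (s1 r τ f) = σ (r, τ)
  A : F → F
  B : F → F
  um : ∀ r τ f, 0 < r.im → 0 < τ → s0 r τ f = sm r τ f
  u1 : ∀ r τ f, 0 < r.im → 0 < τ → s0 r τ f = s1 r τ f
  lm : ∀ r τ f, r.im < 0 → 0 < τ → s0 r τ f = sm r τ (A f)
  l1 : ∀ r τ f, r.im < 0 → 0 < τ → s0 r τ f = s1 r τ (B f)

/-- the strip index -/
noncomputable def sidx (z : ℂ) : ℤ := ⌊(z.im + Real.pi) / (2 * Real.pi)⌋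

theorem sidx_spec (z : ℂ) : 2 * Real.pi * sidx z - Real.pi ≤ z.im ∧
    z.im < 2 * Real.pi * sidx z + Real.pi := by
  have hpi := Real.pi_pos
  have h1 := Int.floor_le ((z.im + Real.pi) / (2 * Real.pi))
  have h2 := Int.lt_floor_add_one ((z.im + Real.pi) / (2 * Real.pi))
  rw [le_div_iff₀ (by positivity)] at h1
  rw [div_lt_iff₀ (by positivity)] at h2
  unfold sidx
  constructor
  · nlinarith
  · nlinarith

theorem sidx_eq {z : ℂ} {k : ℤ} (h1 : 2 * Real.pi * k - Real.pi ≤ z.im)
    (h2 : z.im < 2 * Real.pi * k + Real.pi) : sidx z = k := by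
  have hpi := Real.pi_pos
  unfold sidx
  rw [Int.floor_eq_iff]
  constructor
  · rw [le_div_iff₀ (by positivity)]
    nlinarith
  · rw [div_lt_iff₀ (by positivity)]
    nlinarith

/-- coordinates relative to the strip -/
theorem exp_strip (z : ℂ) (k : ℤ) : (exp z).im = Real.exp z.re * Real.sin (z.im - 2 * Real.pi * k) ∧
    (exp z).re = Real.exp z.re * Real.cos (z.im - 2 * Real.pi * k) := by
  rw [exp_im, exp_re]
  have h1 : z.im - 2 * Real.pi * k = z.im - k * (2 * Real.pi) := by ring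
  rw [h1, Real.sin_sub_int_mul_two_pi, Real.cos_sub_int_mul_two_pi]
  exact ⟨rfl, rfl⟩

variable {X Y : Type*} [TopologicalSpace X] [TopologicalSpace Y] {π : X → Y} {F : Type*}

open Classical in
/-- the lift on the punctured family -/
noncomputable def SliceData.lam (D : SliceData π F) (f : ℤ → F) (p : ℂ × unitInterval) : X :=
  if (1 - exp p.1).im ≠ 0 ∨ (0 < (1 - exp p.1).re ∧ (1 - exp p.1).re < 1) then
    D.s0 (1 - exp p.1) p.2 (f (sidx p.1))
  else if (1 - exp p.1).re < 0 then D.sm (1 - exp p.1) p.2 (f (sidx p.1))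
  else D.s1 (1 - exp p.1) p.2 (f (sidx p.1))

/-- the domain -/
def dom : Set (ℂ × unitInterval) := {p | exp p.1 ≠ 1 ∧ 0 < p.2}

theorem re_cases {z : ℂ} (hz : exp z ≠ 1) (h : ¬ ((1 - exp z).im ≠ 0 ∨
    (0 < (1 - exp z).re ∧ (1 - exp z).re < 1))) :
    (1 - exp z).im = 0 ∧ ((1 - exp z).re < 0 ∨ 1 < (1 - exp z).re) := by
  rw [not_or, not_not] at h
  refine ⟨h.1, ?_⟩
  by_contra hcon
  rw [not_or, not_lt, not_lt] at hcon
  rcases lt_or_eq_of_le hcon.1 with h1 | h1
  · rcases lt_or_eq_of_le hcon.2 with h2 | h2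
    · exact h.2 ⟨h1, h2⟩
    · have : (1 - exp z) = 1 := Complex.ext (by simpa using h2) (by simpa using h.1)
      have h3 : exp z = 0 := by linear_combination -this
      exact exp_ne_zero z h3
  · have : (1 - exp z) = 0 := Complex.ext (by simpa using h1.symm) (by simpa using h.1)
    exact hz (by linear_combination -this)

theorem SliceData.pi_lam (D : SliceData π F) (f : ℤ → F) {p : ℂ × unitInterval}
    (hp : p ∈ dom) : π (D.lam f p) = D.σ (1 - exp p.1, p.2) := by
  unfold SliceData.lam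
  split_ifs with h1 h2
  · exact D.ps0 _ _ _ h1 hp.2
  · exact D.psm _ _ _ (Or.inr h2) hp.2
  · refine D.ps1 _ _ _ (Or.inr ?_) hp.2
    rcases (re_cases hp.1 h1).2 with h | h
    · exact absurd h h2
    · exact h

theorem isOpen_dom : IsOpen dom := by
  have h1 : IsOpen {p : ℂ × unitInterval | exp p.1 ≠ 1} :=
    isOpen_ne_fun (by fun_prop) continuous_const
  exact h1.inter isOpen_pos

/-- the strip index is locally constant away from the boundary of the strips -/
theorem sidx_locConst {z : ℂ} (h : 2 * Real.pi * sidx z - Real.pi < z.im) :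
    ∀ᶠ w in 𝓝 z, sidx w = sidx z := by
  have h1 : ∀ᶠ w : ℂ in 𝓝 z, 2 * Real.pi * sidx z - Real.pi < w.im :=
    continuous_im.continuousAt.eventually (lt_mem_nhds h)
  have h2 : ∀ᶠ w : ℂ in 𝓝 z, w.im < 2 * Real.pi * sidx z + Real.pi :=
    continuous_im.continuousAt.eventually (gt_mem_nhds (sidx_spec z).2)
  filter_upwards [h1, h2] with w hw1 hw2
  exact sidx_eq hw1.le hw2

theorem one_lt_of_boundary {z : ℂ} (h : z.im = 2 * Real.pi * sidx z - Real.pi) :
    (1 - exp z).im = 0 ∧ 1 < (1 - exp z).re := by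
  obtain ⟨h1, h2⟩ := exp_strip z (sidx z)
  have h3 : z.im - 2 * Real.pi * sidx z = -Real.pi := by rw [h]; ring
  rw [h3] at h1 h2
  simp only [Real.sin_neg, Real.sin_pi, Real.cos_neg, Real.cos_pi] at h1 h2
  constructor
  · rw [sub_im, h1]; simp
  · rw [sub_re, h2]
    have := Real.exp_pos z.re
    simp only [one_re]
    linarith

theorem strict_of_not_boundary {z : ℂ} (h : ¬ ((1 - exp z).im = 0 ∧ 1 < (1 - exp z).re)) :
    2 * Real.pi * sidx z - Real.pi < z.im := by
  rcases lt_or_eq_of_le (sidx_spec z).1 with h1 | h1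
  · exact h1
  · exact absurd (one_lt_of_boundary h1.symm) h

theorem boundary_of_one_lt {z : ℂ} (h : (1 - exp z).im = 0) (h' : 1 < (1 - exp z).re) :
    z.im = 2 * Real.pi * sidx z - Real.pi := by
  obtain ⟨h1, h2⟩ := exp_strip z (sidx z)
  have hs := sidx_spec z
  set b := z.im - 2 * Real.pi * sidx z with hb
  have hE := Real.exp_pos z.re
  rw [sub_im, one_im, zero_sub, neg_eq_zero] at h
  rw [sub_re, one_re] at h'
  rw [h1] at h
  rw [h2] at h'
  have hsin : Real.sin b = 0 := by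
    rcases mul_eq_zero.1 h with h3 | h3
    · exact absurd h3 hE.ne'
    · exact h3
  have hcos : Real.cos b < 0 := by
    by_contra hcon
    have := mul_nonneg hE.le (not_lt.1 hcon)
    linarith
  have hb1 : -Real.pi ≤ b := by rw [hb]; linarith [hs.1]
  have hb2 : b < Real.pi := by rw [hb]; linarith [hs.2]
  rcases lt_or_eq_of_le hb1 with h3 | h3
  · have : b = 0 := (Real.sin_eq_zero_iff_of_lt_of_lt h3 hb2).1 hsin
    rw [this, Real.cos_zero] at hcos
    linarith
  · linarith [hb, h3]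

/-- sign of the imaginary part near the boundary of a strip -/
theorem near_boundary {z : ℂ} (hz : z.im = 2 * Real.pi * sidx z - Real.pi) :
    ∀ᶠ w in 𝓝 z, (sidx w = sidx z ∧ 0 ≤ (1 - exp w).im) ∨
      (sidx w = sidx z - 1 ∧ (1 - exp w).im < 0) := by
  have hpi := Real.pi_pos
  have h1 : ∀ᶠ w : ℂ in 𝓝 z, z.im - Real.pi < w.im :=
    continuous_im.continuousAt.eventually (lt_mem_nhds (by linarith))
  have h2 : ∀ᶠ w : ℂ in 𝓝 z, w.im < z.im + Real.pi :=
    continuous_im.continuousAt.eventually (gt_mem_nhds (by linarith))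
  filter_upwards [h1, h2] with w hw1 hw2
  have hE := Real.exp_pos w.re
  have him : (1 - exp w).im = Real.exp w.re * Real.sin (w.im - z.im) := by
    have h3 := (exp_strip w (sidx z)).1
    have h4 : w.im - 2 * Real.pi * sidx z = (w.im - z.im) - Real.pi := by rw [hz]; ring
    rw [sub_im, one_im, h3, h4, Real.sin_sub_pi]
    ring
  rcases le_or_gt z.im w.im with h | h
  · left
    refine ⟨sidx_eq (by linarith) (by linarith), ?_⟩
    rw [him]
    exact mul_nonneg hE.le (Real.sin_nonneg_of_nonneg_of_le_pi (by linarith) (by linarith))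
  · right
    refine ⟨sidx_eq ?_ ?_, ?_⟩
    · push_cast
      linarith
    · push_cast
      linarith
    · rw [him]
      exact mul_neg_of_pos_of_neg hE (Real.sin_neg_of_neg_of_neg_pi_lt (by linarith) (by linarith))

theorem SliceData.continuousAt_lam (D : SliceData π F) {f : ℤ → F}
    (hB : ∀ k, f (k + 1) = D.B (f k)) (hA : ∀ k, D.A (f k) = f k) {p : ℂ × unitInterval}
    (hp : p ∈ dom) : ContinuousAt (D.lam f) p := by
  obtain ⟨z, τ⟩ := p
  obtain ⟨hz, hτ⟩ := hp
  have hz : exp z ≠ 1 := hz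
  have hτ : 0 < τ := hτ
  have hpos : ∀ᶠ q : ℂ × unitInterval in 𝓝 (z, τ), 0 < q.2 := isOpen_pos.mem_nhds hτ
  by_cases h0 : (1 - exp z).im ≠ 0 ∨ (0 < (1 - exp z).re ∧ (1 - exp z).re < 1)
  · -- case A
    have hev := ev_slice isOpen_R0 τ h0
    have hnb : 2 * Real.pi * sidx z - Real.pi < z.im := by
      refine strict_of_not_boundary ?_
      rintro ⟨h1, h2⟩
      rcases h0 with h3 | h3
      · exact h3 h1
      · exact absurd h2 (not_lt.2 h3.2.le)
    have hidx : ∀ᶠ q : ℂ × unitInterval in 𝓝 (z, τ), sidx q.1 = sidx z :=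
      ev_fst τ (sidx_locConst hnb)
    have hc := cont_slice isOpen_R0 (D.cs0 (f (sidx z))) h0 hτ
    refine hc.congr ?_
    filter_upwards [hev, hidx] with q hq1 hq2
    have hq1' : (1 - exp q.1).im ≠ 0 ∨ (0 < (1 - exp q.1).re ∧ (1 - exp q.1).re < 1) := hq1
    rw [SliceData.lam, if_pos hq1', hq2]
  · obtain ⟨him, hre⟩ := re_cases hz h0
    rcases hre with hre | hre
    · -- case B
      have hev := ev_slice (isOpen_lt continuous_re continuous_const) τ hre
      have hnb : 2 * Real.pi * sidx z - Real.pi < z.im := by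
        refine strict_of_not_boundary ?_
        rintro ⟨h1, h2⟩
        linarith
      have hidx : ∀ᶠ q : ℂ × unitInterval in 𝓝 (z, τ), sidx q.1 = sidx z :=
        ev_fst τ (sidx_locConst hnb)
      have hc := cont_slice isOpen_Rm (D.csm (f (sidx z))) (Or.inr hre) hτ
      refine hc.congr ?_
      filter_upwards [hev, hidx, hpos] with q hq1 hq2 hq3
      have hq1' : (1 - exp q.1).re < 0 := hq1
      by_cases h : (1 - exp q.1).im ≠ 0 ∨ (0 < (1 - exp q.1).re ∧ (1 - exp q.1).re < 1)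
      · rw [SliceData.lam, if_pos h, hq2]
        rcases h with h | h
        · rcases lt_or_gt_of_ne h with h' | h'
          · rw [D.lm _ _ _ h' hq3, hA]
          · rw [D.um _ _ _ h' hq3]
        · linarith [h.1]
      · rw [SliceData.lam, if_neg h, if_pos hq1', hq2]
    · -- case C
      have hb := boundary_of_one_lt him hre
      have hev := ev_slice (isOpen_lt continuous_const continuous_re) τ hre
      have hidx : ∀ᶠ q : ℂ × unitInterval in 𝓝 (z, τ),
          (sidx q.1 = sidx z ∧ 0 ≤ (1 - exp q.1).im) ∨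
          (sidx q.1 = sidx z - 1 ∧ (1 - exp q.1).im < 0) :=
        ev_fst τ (near_boundary hb)
      have hc := cont_slice isOpen_R1 (D.cs1 (f (sidx z))) (Or.inr hre) hτ
      refine hc.congr ?_
      filter_upwards [hev, hidx, hpos] with q hq1 hq2 hq3
      have hq1' : 1 < (1 - exp q.1).re := hq1
      by_cases h : (1 - exp q.1).im ≠ 0 ∨ (0 < (1 - exp q.1).re ∧ (1 - exp q.1).re < 1)
      · rw [SliceData.lam, if_pos h]
        rcases h with h | h
        · rcases hq2 with ⟨hq2, hq4⟩ | ⟨hq2, hq4⟩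
          · have h' : 0 < (1 - exp q.1).im := lt_of_le_of_ne hq4 (Ne.symm h)
            rw [D.u1 _ _ _ h' hq3, hq2]
          · rw [D.l1 _ _ _ hq4 hq3, hq2, ← hB, sub_add_cancel]
        · linarith [h.2]
      · have h5 : ¬ (1 - exp q.1).re < 0 := by linarith
        rw [SliceData.lam, if_neg h, if_neg h5]
        rcases hq2 with ⟨hq2, hq4⟩ | ⟨hq2, hq4⟩
        · rw [hq2]
        · exact absurd (Or.inl hq4.ne) h

/-! ### the domain is dense and locally non separating -/

theorem locNonSep_exp : LocNonSep {z : ℂ | exp z ≠ 1} := by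
  intro z U hU
  by_cases hz : exp z = 1
  · obtain ⟨ε, hε, hball⟩ := Metric.mem_nhds_iff.1 hU
    refine ⟨Metric.ball z (min ε 1), Metric.ball_mem_nhds z (by positivity),
      (Metric.ball_subset_ball (min_le_left _ _)).trans hball, ?_⟩
    have h1 : Metric.ball z (min ε 1) ∩ {z : ℂ | exp z ≠ 1} = Metric.ball z (min ε 1) \ {z} := by
      ext w
      constructor
      · rintro ⟨hw, hw'⟩
        refine ⟨hw, ?_⟩
        rintro rfl
        exact hw' hz
      · rintro ⟨hw, hw'⟩
        refine ⟨hw, fun h => hw' ?_⟩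
        obtain ⟨n, hn⟩ := exp_eq_exp_iff_exists_int.1 (h.trans hz.symm)
        have hwz : ‖w - z‖ < 1 := by
          have := Metric.ball_subset_ball (min_le_right ε 1) hw
          simpa [dist_eq_norm] using this
        by_cases h0 : n = 0
        · subst h0
          simpa using hn
        · exfalso
          have h2 : w - z = n * (2 * Real.pi * I) := by rw [hn]; ring
          rw [h2] at hwz
          simp only [norm_mul, norm_I, mul_one, norm_intCast, norm_ofNat, norm_real,
            Real.norm_eq_abs, abs_of_pos Real.pi_pos] at hwz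
          have h3 : (1:ℝ) ≤ |(n:ℝ)| := by
            have : (1:ℤ) ≤ |n| := Int.one_le_abs h0
            exact_mod_cast this
          have h4 := Real.pi_gt_three
          nlinarith
    rw [h1]
    exact isPreconnected_punctured_ball z _
  · have ho : IsOpen {z : ℂ | exp z ≠ 1} := isOpen_ne_fun (by fun_prop) continuous_const
    obtain ⟨ε, hε, hball⟩ := Metric.mem_nhds_iff.1 (inter_mem hU (ho.mem_nhds hz))
    refine ⟨Metric.ball z ε, Metric.ball_mem_nhds z hε, fun w hw => (hball hw).1, ?_⟩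
    have h1 : Metric.ball z ε ∩ {z : ℂ | exp z ≠ 1} = Metric.ball z ε :=
      inter_eq_left.2 fun w hw => (hball hw).2
    rw [h1]
    exact (convex_ball z ε).isPreconnected

theorem dense_exp : Dense {z : ℂ | exp z ≠ 1} := by
  have h1 : {z : ℂ | exp z ≠ 1} = (range fun n : ℤ => (n : ℂ) * (2 * Real.pi * I))ᶜ := by
    ext z
    simp only [mem_compl_iff, mem_range, not_exists]
    constructor
    · rintro h n rfl
      exact h (exp_int_mul_two_pi_mul_I n)
    · intro h h'
      obtain ⟨n, hn⟩ := exp_eq_one_iff.1 h'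
      exact h n hn.symm
  rw [h1]
  exact (countable_range _).dense_compl ℝ

theorem dom_eq : dom = {z : ℂ | exp z ≠ 1} ×ˢ {t : unitInterval | 0 < t} := rfl

theorem locNonSep_dom : LocNonSep dom := by
  rw [dom_eq]
  exact locNonSep_exp.prod locNonSep_pos

theorem dense_dom : Dense dom := by
  rw [dom_eq]
  exact dense_exp.prod dense_pos

theorem SliceData.continuous_base (D : SliceData π F) :
    Continuous fun p : ℂ × unitInterval => D.σ (1 - exp p.1, p.2) := by
  refine D.cσ.comp_continuous (by fun_prop) ?_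
  intro p h
  have h1 : (1 : ℂ) - exp p.1 = 1 := h
  exact exp_ne_zero p.1 (by linear_combination -h1)

/-- **[STRIP]** the lift of `(z, τ) ↦ σ (1 - exp z, τ)`. -/
theorem SliceData.exists_lift [T2Space X] [RegularSpace X] [T2Space Y] (D : SliceData π F)
    (hπ : IsProperMap π) (hfin : ∀ y, (π ⁻¹' {y}).Finite) {f : ℤ → F}
    (hB : ∀ k, f (k + 1) = D.B (f k)) (hA : ∀ k, D.A (f k) = f k) :
    ∃ M : ℂ × unitInterval → X, Continuous M ∧ (∀ p ∈ dom, M p = D.lam f p) ∧
      (∀ p, π (M p) = D.σ (1 - exp p.1, p.2)) ∧ ∀ p, Tendsto (D.lam f) (𝓝[dom] p) (𝓝 (M p)) :=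
  exists_extension hπ hfin dense_dom locNonSep_dom
    (fun _ hp => (D.continuousAt_lam hB hA hp).continuousWithinAt) D.continuous_base
    (fun _ hp => D.pi_lam f hp)

theorem sidx_add (z : ℂ) (m : ℤ) : sidx (z + m * (2 * Real.pi * I)) = sidx z + m := by
  have h := sidx_spec z
  have him : (z + m * (2 * Real.pi * I)).im = z.im + 2 * Real.pi * m := by
    simp
    ring
  refine sidx_eq ?_ ?_
  · rw [him]; push_cast; linarith [h.1]
  · rw [him]; push_cast; linarith [h.2]

theorem exp_add_period (z : ℂ) (m : ℤ) : exp (z + m * (2 * Real.pi * I)) = exp z := by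
  rw [exp_add, exp_int_mul_two_pi_mul_I, mul_one]

/-- periodicity of the lift -/
theorem SliceData.lam_add (D : SliceData π F) {f : ℤ → F} {m : ℤ} (hf : ∀ k, f (k + m) = f k)
    (z : ℂ) (τ : unitInterval) : D.lam f (z + m * (2 * Real.pi * I), τ) = D.lam f (z, τ) := by
  simp only [SliceData.lam, sidx_add, exp_add_period, hf]

theorem SliceData.periodic [T2Space X] (D : SliceData π F) {f : ℤ → F} {m : ℤ}
    (hf : ∀ k, f (k + m) = f k) {M : ℂ × unitInterval → X} (hM : Continuous M)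
    (hMf : ∀ p ∈ dom, M p = D.lam f p) (z : ℂ) (τ : unitInterval) :
    M (z + m * (2 * Real.pi * I), τ) = M (z, τ) := by
  have h1 : (fun p : ℂ × unitInterval => M (p.1 + m * (2 * Real.pi * I), p.2)) = M := by
    refine extension_unique dense_dom (hM.comp (by fun_prop)) hM ?_
    rintro ⟨z, τ⟩ ⟨hz, hτ⟩
    have h2 : (z + m * (2 * Real.pi * I), τ) ∈ dom := by
      refine ⟨?_, hτ⟩
      rw [exp_add_period]
      exact hz
    rw [hMf _ h2, hMf _ ⟨hz, hτ⟩]
    exact D.lam_add hf z τ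
  exact congrFun h1 (z, τ)

/-- naturality of the lift -/
theorem SliceData.natural {X' F' : Type*} [TopologicalSpace X'] {π' : X' → Y} [T2Space X]
    (D : SliceData π F) (D' : SliceData π' F') {q : X' → X} (hq : Continuous q) {φ : F' → F}
    (h0 : ∀ r τ f, r ∈ R0 → 0 < τ → q (D'.s0 r τ f) = D.s0 r τ (φ f))
    (hm : ∀ r τ f, r ∈ Rm → 0 < τ → q (D'.sm r τ f) = D.sm r τ (φ f))
    (h1 : ∀ r τ f, r ∈ R1 → 0 < τ → q (D'.s1 r τ f) = D.s1 r τ (φ f))
    {f' : ℤ → F'} {f : ℤ → F} (hf : ∀ k, φ (f' k) = f k) {M' : ℂ × unitInterval → X'}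
    {M : ℂ × unitInterval → X} (hM' : Continuous M') (hM : Continuous M)
    (hMf' : ∀ p ∈ dom, M' p = D'.lam f' p) (hMf : ∀ p ∈ dom, M p = D.lam f p)
    (p : ℂ × unitInterval) : q (M' p) = M p := by
  have h2 : (fun p => q (M' p)) = M := by
    refine extension_unique dense_dom (hq.comp hM') hM ?_
    intro p hp
    rw [hMf' p hp, hMf p hp]
    unfold SliceData.lam
    split_ifs with h3 h4
    · rw [h0 _ _ _ h3 hp.2, hf]
    · rw [hm _ _ _ (Or.inr h4) hp.2, hf]
    · rw [h1 _ _ _ (Or.inr ?_) hp.2, hf]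
      rcases (re_cases hp.1 h3).2 with h | h
      · exact absurd h h4
      · exact h
  exact congrFun h2 p

/-- the approach of the node inside the real chamber -/
theorem tendsto_approach (k : ℤ) : Tendsto
    (fun p : ℝ × unitInterval => ((k * (2 * Real.pi * I) + Real.log (1 - p.1) : ℂ), p.2))
    (𝓝[Ioo (0:ℝ) 1 ×ˢ Ioi (0 : unitInterval)] (0, 0))
    (𝓝[dom] ((k * (2 * Real.pi * I) : ℂ), 0)) := by
  refine tendsto_nhdsWithin_iff.2 ⟨?_, ?_⟩
  · have h1 : ContinuousAt (fun p : ℝ × unitInterval =>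
        ((k * (2 * Real.pi * I) + Real.log (1 - p.1) : ℂ), p.2)) (0, 0) := by
      have h2 : ContinuousAt (fun p : ℝ × unitInterval => Real.log (1 - p.1)) (0, 0) := by
        refine ContinuousAt.log (by fun_prop) (by simp)
      have h3 : ContinuousAt (fun p : ℝ × unitInterval => ((Real.log (1 - p.1) : ℝ) : ℂ))
          (0, 0) := continuous_ofReal.continuousAt.comp h2
      exact (continuousAt_const.add h3).prodMk continuousAt_snd
    have h4 := h1.tendsto
    simp only [sub_zero, Real.log_one, ofReal_zero, add_zero] at h4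
    exact h4.mono_left nhdsWithin_le_nhds
  · filter_upwards [self_mem_nhdsWithin] with p hp
    obtain ⟨⟨hp1, hp2⟩, hp3⟩ := hp
    refine ⟨?_, hp3⟩
    have h5 : exp (k * (2 * Real.pi * I) + Real.log (1 - p.1) : ℂ) = ((1 - p.1 : ℝ) : ℂ) := by
      rw [exp_add, exp_int_mul_two_pi_mul_I, one_mul, ← ofReal_exp,
        Real.exp_log (by linarith)]
    rw [h5]
    intro h6
    have h7 : (1 - p.1 : ℝ) = 1 := by exact_mod_cast h6
    linarith

theorem SliceData.lam_approach (D : SliceData π F) (f : ℤ → F) (k : ℤ) {r : ℝ} (h0 : 0 < r)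
    (h1 : r < 1) (τ : unitInterval) :
    D.lam f ((k * (2 * Real.pi * I) + Real.log (1 - r) : ℂ), τ) = D.s0 (r : ℂ) τ (f k) := by
  have h5 : exp (k * (2 * Real.pi * I) + Real.log (1 - r) : ℂ) = ((1 - r : ℝ) : ℂ) := by
    rw [exp_add, exp_int_mul_two_pi_mul_I, one_mul, ← ofReal_exp, Real.exp_log (by linarith)]
  have h6 : (1 : ℂ) - ((1 - r : ℝ) : ℂ) = (r : ℂ) := by push_cast; ring
  have hpi := Real.pi_pos
  have h7 : sidx (k * (2 * Real.pi * I) + Real.log (1 - r) : ℂ) = k := by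
    have him : (k * (2 * Real.pi * I) + Real.log (1 - r) : ℂ).im = 2 * Real.pi * k := by
      simp
      ring
    refine sidx_eq ?_ ?_
    · rw [him]; linarith
    · rw [him]; linarith
  have h8 : (r : ℂ).im ≠ 0 ∨ (0 < (r : ℂ).re ∧ (r : ℂ).re < 1) := Or.inr ⟨by simpa using h0,
    by simpa using h1⟩
  unfold SliceData.lam
  simp only [h5, h6, h7]
  rw [if_pos h8]

/-- the value of the lift at the nodes -/
theorem SliceData.node_eq [T2Space X] (D : SliceData π F) {f : ℤ → F} {M : ℂ × unitInterval → X}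
    (hMf : ∀ p, Tendsto (D.lam f) (𝓝[dom] p) (𝓝 (M p))) {k : ℤ} {ν : X}
    (hν : Tendsto (fun p : ℝ × unitInterval => D.s0 (p.1 : ℂ) p.2 (f k))
      (𝓝[Ioo (0:ℝ) 1 ×ˢ Ioi (0 : unitInterval)] (0, 0)) (𝓝 ν)) :
    M ((k * (2 * Real.pi * I) : ℂ), 0) = ν := by
  have h1 := (hMf ((k * (2 * Real.pi * I) : ℂ), 0)).comp (tendsto_approach k)
  have h2 : Tendsto (fun p : ℝ × unitInterval => D.s0 (p.1 : ℂ) p.2 (f k))
      (𝓝[Ioo (0:ℝ) 1 ×ˢ Ioi (0 : unitInterval)] (0, 0)) (𝓝 (M ((k * (2 * Real.pi * I) : ℂ), 0))) := by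
    refine h1.congr' ?_
    filter_upwards [self_mem_nhdsWithin] with p hp
    exact D.lam_approach f k hp.1.1 hp.1.2 p.2
  have hne : (𝓝[Ioo (0:ℝ) 1 ×ˢ Ioi (0 : unitInterval)] ((0:ℝ), (0 : unitInterval))).NeBot := by
    rw [← mem_closure_iff_nhdsWithin_neBot, closure_prod_eq]
    refine ⟨?_, ?_⟩
    · rw [closure_Ioo (by norm_num)]
      exact ⟨le_refl _, by norm_num⟩
    · exact dense_pos 0
  exact tendsto_nhds_unique h2 hν

end Vale.Agent.P300.H707
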